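import Vale.Agent.P205.Full.Coef

/-!
Rapidly decreasing coefficient families: algebra, the mean value, Parseval.
-/

open scoped ContDiff ComplexConjugate
open Complex MeasureTheory

namespace Vale.Agent.P205.Full.Lin

/-- Rapid decrease. -/
def Rap (c : Coef) : Prop := ∀ m, Mem m c

theorem wt_pos (k : Z2) : 0 < wt k := zero_lt_one.trans_le (one_le_wt k)

theorem summable_coef {c : Coef} (hc : Mem 0 c) : Summable fun k => ‖c k‖ := by
  simpa [Mem] using hc

theorem norm_ch (k : Z2) (x : Pl) : ‖ch k x‖ = 1 := by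
  rw [ch, Complex.norm_exp_ofReal_mul_I]

theorem summable_ev {c : Coef} (hc : Mem 0 c) (x : Pl) : Summable fun k => c k * ch k x :=
  Summable.of_norm (by simpa [norm_ch] using summable_coef hc)

theorem ev_add {c d : Coef} (hc : Mem 0 c) (hd : Mem 0 d) (x : Pl) :
    ev (c + d) x = ev c x + ev d x := by
  rw [ev, ev, ev, ← (summable_ev hc x).tsum_add (summable_ev hd x)]
  simp [add_mul]

theorem Mem_add {m : ℕ} {c d : Coef} (hc : Mem m c) (hd : Mem m d) : Mem m (c + d) := by
  refine (Summable.add hc hd).of_nonneg_of_le (fun k => by have := wt_pos k; positivity)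
    fun k => ?_
  rw [← mul_add]
  exact mul_le_mul_of_nonneg_left (norm_add_le _ _) (by have := wt_pos k; positivity)

theorem Rap.add {c d : Coef} (hc : Rap c) (hd : Rap d) : Rap (c + d) :=
  fun m => Mem_add (hc m) (hd m)

theorem Rap.conv {c d : Coef} (hc : Rap c) (hd : Rap d) : Rap (Full.conv c d) :=
  fun m => Mem.conv (hc m) (hd m)

theorem Rap.dC (η : Pl) {c : Coef} (hc : Rap c) : Rap (Full.dC η c) :=
  fun m => Mem.dC η (hc (m + 1))

theorem norm_le_nrm {c : Coef} (hc : Mem 0 c) (k : Z2) : ‖c k‖ ≤ nrm 0 c := by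
  unfold nrm
  simp only [pow_zero, one_mul]
  exact (summable_coef hc).le_tsum k fun l _ => norm_nonneg _

theorem summable_conv {c d : Coef} (hc : Mem 0 c) (hd : Mem 0 d) (k : Z2) :
    Summable fun l => c l * d (k - l) := by
  refine Summable.of_norm ?_
  refine ((summable_coef hc).mul_right (nrm 0 d)).of_nonneg_of_le (fun l => norm_nonneg _) fun l => ?_
  rw [norm_mul]
  exact mul_le_mul_of_nonneg_left (norm_le_nrm hd _) (norm_nonneg _)

theorem conv_add {c d e : Coef} (hc : Mem 0 c) (hd : Mem 0 d) (he : Mem 0 e) :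
    conv c (d + e) = conv c d + conv c e := by
  funext k
  simp only [conv, Pi.add_apply, mul_add]
  exact (summable_conv hc hd k).tsum_add (summable_conv hc he k)

theorem dsym_add (η : Pl) (k l : Z2) : dsym η (k + l) = dsym η k + dsym η l := by
  simp only [dsym, Prod.fst_add, Prod.snd_add, Int.cast_add]
  push_cast
  ring

theorem dC_add (η : Pl) (c d : Coef) : dC η (c + d) = dC η c + dC η d := by
  funext k
  simp [dC, mul_add]

theorem dC_conv (η : Pl) {c d : Coef} (hc : Rap c) (hd : Rap d) :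
    dC η (conv c d) = conv (dC η c) d + conv c (dC η d) := by
  funext k
  simp only [dC, conv, Pi.add_apply]
  have h1 := summable_conv (hc.dC η 0) (hd 0) k
  have h2 := summable_conv (hc 0) (hd.dC η 0) k
  simp only [dC] at h1 h2
  rw [← h1.tsum_add h2, ← tsum_mul_left]
  refine tsum_congr fun l => ?_
  have : dsym η k = dsym η l + dsym η (k - l) := by
    rw [← dsym_add, add_sub_cancel]
  rw [this]
  ring

theorem summable_wt_four : Summable fun k : Z2 => (wt k ^ 4)⁻¹ := by
  have h1 : Summable fun n : ℤ => ((1 + |(n : ℝ)|) ^ 2)⁻¹ := by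
    refine (((Real.summable_one_div_int_pow (p := 2)).mpr one_lt_two).add
      (hasSum_single (0 : ℤ) (f := fun n : ℤ => if n = 0 then (1 : ℝ) else 0)
        (fun b hb => by simp [hb])).summable).of_nonneg_of_le (fun n => by positivity) fun n => ?_
    by_cases hn : n = 0
    · simp [hn]
    · have : (0 : ℝ) < |(n : ℝ)| := abs_pos.mpr (Int.cast_ne_zero.mpr hn)
      simp only [hn, if_false, add_zero, one_div]
      rw [← sq_abs (n : ℝ)]
      gcongr
      linarith
  refine ((h1.mul_of_nonneg h1 (fun n => by positivity) fun n => by positivity)).of_nonneg_of_le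
    (fun k => by have := wt_pos k; positivity) fun k => ?_
  rw [← mul_inv]
  gcongr
  have a := abs_nonneg (k.1 : ℝ)
  have b := abs_nonneg (k.2 : ℝ)
  have : (1 + |(k.1 : ℝ)|) * (1 + |(k.2 : ℝ)|) ≤ wt k ^ 2 := by
    unfold wt; nlinarith
  calc (1 + |(k.1 : ℝ)|) ^ 2 * (1 + |(k.2 : ℝ)|) ^ 2
      = ((1 + |(k.1 : ℝ)|) * (1 + |(k.2 : ℝ)|)) ^ 2 := by ring
    _ ≤ (wt k ^ 2) ^ 2 := by gcongr
    _ = wt k ^ 4 := by ring

/-! ### Mean value and Parseval -/

/-- The unit square. -/
def sq : Set Pl := Set.Icc 0 1 ×ˢ Set.Icc 0 1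

theorem sq_compact : IsCompact sq := isCompact_Icc.prod isCompact_Icc

theorem continuous_ch (k : Z2) : Continuous (ch k) := by
  unfold ch
  fun_prop

theorem integral_exp_int (n : ℤ) :
    ∫ t in Set.Icc (0 : ℝ) 1, Complex.exp (((2 * Real.pi * n : ℝ) : ℂ) * I * (t : ℂ)) =
      if n = 0 then 1 else 0 := by
  rw [integral_Icc_eq_integral_Ioc, ← intervalIntegral.integral_of_le zero_le_one]
  by_cases hn : n = 0
  · simp [hn]
  · have hc : ((2 * Real.pi * n : ℝ) : ℂ) * I ≠ 0 := by
      simp [hn, Real.pi_ne_zero, Complex.I_ne_zero]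
    rw [integral_exp_mul_complex hc, if_neg hn]
    have : Complex.exp (((2 * Real.pi * n : ℝ) : ℂ) * I * ((1 : ℝ) : ℂ)) = 1 := by
      rw [Complex.exp_eq_one_iff]
      exact ⟨n, by push_cast; ring⟩
    rw [this]
    simp

theorem integral_ch (k : Z2) : ∫ x in sq, ch k x = if k = 0 then 1 else 0 := by
  have e : ∀ x : Pl, ch k x =
      Complex.exp (((2 * Real.pi * k.1 : ℝ) : ℂ) * I * (x.1 : ℂ)) *
        Complex.exp (((2 * Real.pi * k.2 : ℝ) : ℂ) * I * (x.2 : ℂ)) := by
    intro x
    rw [ch, ← Complex.exp_add]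
    congr 1
    push_cast
    ring
  simp only [e, sq, Measure.volume_eq_prod]
  rw [setIntegral_prod_mul (fun t : ℝ => Complex.exp (((2 * Real.pi * k.1 : ℝ) : ℂ) * I * (t : ℂ)))
    (fun t : ℝ => Complex.exp (((2 * Real.pi * k.2 : ℝ) : ℂ) * I * (t : ℂ))),
    integral_exp_int, integral_exp_int]
  obtain ⟨k1, k2⟩ := k
  simp only [Prod.mk_eq_zero]
  split_ifs <;> simp_all

theorem integral_ev {c : Coef} (hc : Mem 0 c) : ∫ x in sq, ev c x = c 0 := by
  have hint : ∀ k, IntegrableOn (fun x => c k * ch k x) sq := fun k =>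
    (continuous_const.mul (continuous_ch k)).continuousOn.integrableOn_compact sq_compact
  have hsum : Summable fun k => ∫ x in sq, ‖c k * ch k x‖ := by
    simp only [norm_mul, norm_ch, mul_one, setIntegral_const, smul_eq_mul]
    exact (summable_coef hc).mul_left _
  unfold ev
  rw [← integral_tsum_of_summable_integral_norm hint hsum]
  simp only [integral_const_mul, integral_ch, mul_ite, mul_one, mul_zero]
  exact tsum_ite_eq 0 _

/-- Coefficients of the conjugate series. -/
noncomputable def cstar (c : Coef) : Coef := fun k => conj (c (-k))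

theorem Mem_cstar {c : Coef} (hc : Mem 0 c) : Mem 0 (cstar c) := by
  have : Summable fun k => ‖c (-k)‖ := (summable_coef hc).comp_injective neg_injective
  simpa [Mem, cstar] using this

theorem ev_cstar (c : Coef) (x : Pl) : ev (cstar c) x = conj (ev c x) := by
  rw [ev, ev, Complex.conj_tsum, ← (Equiv.neg Z2).tsum_eq fun k => conj (c k * ch k x)]
  refine tsum_congr fun k => ?_
  simp only [Equiv.neg_apply, cstar, map_mul]
  congr 1
  rw [ch, ch, ← Complex.exp_conj]
  congr 1
  simp [Prod.fst_neg, Prod.snd_neg, map_ofNat]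
  ring

theorem summable_normSq {c : Coef} (hc : Mem 0 c) : Summable fun k => ‖c k‖ ^ 2 := by
  refine ((summable_coef hc).mul_right (nrm 0 c)).of_nonneg_of_le (fun k => by positivity)
    fun k => ?_
  rw [_root_.sq]
  exact mul_le_mul_of_nonneg_left (norm_le_nrm hc k) (norm_nonneg _)

theorem integrable_norm_sq {c : Coef} (hc : Mem 0 c) :
    IntegrableOn (fun x => ‖ev c x‖ ^ 2) sq :=
  ((continuous_ev hc).norm.pow 2).continuousOn.integrableOn_compact sq_compact

theorem parseval {c : Coef} (hc : Mem 0 c) :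
    ∫ x in sq, ‖ev c x‖ ^ 2 = ∑' k, ‖c k‖ ^ 2 := by
  have h1 := integral_ev (Mem.conv hc (Mem_cstar hc))
  simp only [ev_conv hc (Mem_cstar hc), ev_cstar, Complex.mul_conj'] at h1
  have h2 : Full.conv c (cstar c) 0 = ((∑' k, ‖c k‖ ^ 2 : ℝ) : ℂ) := by
    simp only [Full.conv, cstar, zero_sub, neg_neg, Complex.mul_conj', Complex.ofReal_tsum,
      Complex.ofReal_pow]
  rw [h2] at h1
  simp only [← Complex.ofReal_pow] at h1
  rw [integral_complex_ofReal] at h1
  exact Complex.ofReal_injective h1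

end Vale.Agent.P205.Full.Lin
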