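import Vale.Agent.P205.Full.Linear.Basic

/-!
The Neumann series `d (n+1) = Π (M * d n)` decays geometrically in every derivative.
-/

open scoped ContDiff ComplexConjugate
open Complex MeasureTheory

namespace Vale.Agent.P205.Full.Lin

/-- A pair of coefficient families. -/
abbrev Pr : Type := Coef × Coef

/-- A two by two matrix of coefficient families. -/
abbrev Mt : Type := Pr × Pr

/-- Both components decrease rapidly. -/
def RapP (x : Pr) : Prop := Rap x.1 ∧ Rap x.2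

/-- All entries decrease rapidly. -/
def RapM (M : Mt) : Prop := RapP M.1 ∧ RapP M.2

/-- Derivative of a pair. -/
noncomputable def dP (η : Pl) (x : Pr) : Pr := (dC η x.1, dC η x.2)

/-- Derivative of a matrix. -/
noncomputable def dM (η : Pl) (M : Mt) : Mt := (dP η M.1, dP η M.2)

/-- Multiplication by a matrix. -/
noncomputable def mv (M : Mt) (x : Pr) : Pr :=
  (conv M.1.1 x.1 + conv M.1.2 x.2, conv M.2.1 x.1 + conv M.2.2 x.2)

/-- Potential of the gradient part. -/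
noncomputable def pot (x : Pr) : Coef := fun k =>
  ((k.1 : ℂ) * x.1 k + (k.2 : ℂ) * x.2 k) /
    (2 * (Real.pi : ℂ) * I * ((k.1 : ℂ) ^ 2 + (k.2 : ℂ) ^ 2))

/-- Projection onto gradients. -/
noncomputable def proj (x : Pr) : Pr := (dC e1 (pot x), dC e2 (pot x))

theorem RapP.add {x y : Pr} (hx : RapP x) (hy : RapP y) : RapP (x + y) :=
  ⟨hx.1.add hy.1, hx.2.add hy.2⟩

theorem RapP.dP (η : Pl) {x : Pr} (hx : RapP x) : RapP (Lin.dP η x) := ⟨hx.1.dC η, hx.2.dC η⟩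

theorem RapM.dM (η : Pl) {M : Mt} (hM : RapM M) : RapM (Lin.dM η M) := ⟨hM.1.dP η, hM.2.dP η⟩

theorem RapP.mv {M : Mt} {x : Pr} (hM : RapM M) (hx : RapP x) : RapP (Lin.mv M x) :=
  ⟨(hM.1.1.conv hx.1).add (hM.1.2.conv hx.2), (hM.2.1.conv hx.1).add (hM.2.2.conv hx.2)⟩

theorem norm_pot_le (x : Pr) (k : Z2) : ‖pot x k‖ ≤ ‖x.1 k‖ + ‖x.2 k‖ := by
  obtain ⟨a, b⟩ := k
  by_cases h0 : (a : ℝ) ^ 2 + (b : ℝ) ^ 2 = 0
  · have : (a : ℂ) ^ 2 + (b : ℂ) ^ 2 = 0 := by exact_mod_cast h0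
    simp only [pot, this, mul_zero, div_zero, norm_zero]
    positivity
  have hN : (0 : ℝ) < (a : ℝ) ^ 2 + (b : ℝ) ^ 2 := lt_of_le_of_ne (by positivity) (Ne.symm h0)
  have hden : ‖2 * (Real.pi : ℂ) * I * ((a : ℂ) ^ 2 + (b : ℂ) ^ 2)‖
      = 2 * Real.pi * ((a : ℝ) ^ 2 + (b : ℝ) ^ 2) := by
    have e : ((a : ℂ) ^ 2 + (b : ℂ) ^ 2) = (((a : ℝ) ^ 2 + (b : ℝ) ^ 2 : ℝ) : ℂ) := by push_cast; rfl
    rw [e]
    simp only [norm_mul, Complex.norm_I, Complex.norm_real, Real.norm_eq_abs, mul_one,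
      abs_of_pos Real.pi_pos, abs_of_pos hN]
    norm_num
  simp only [pot, norm_div, hden]
  rw [div_le_iff₀ (by positivity)]
  refine (norm_add_le _ _).trans ?_
  simp only [norm_mul, Complex.norm_intCast]
  have ha : |(a : ℝ)| ≤ (a : ℝ) ^ 2 := by
    have : |a| ≤ a ^ 2 := by
      rw [← sq_abs a]
      exact Int.le_self_sq _
    exact_mod_cast this
  have hb : |(b : ℝ)| ≤ (b : ℝ) ^ 2 := by
    have : |b| ≤ b ^ 2 := by
      rw [← sq_abs b]
      exact Int.le_self_sq _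
    exact_mod_cast this
  have h2 : 1 ≤ 2 * Real.pi := by have := Real.two_le_pi; linarith
  have hA : |(a : ℝ)| ≤ 2 * Real.pi * ((a : ℝ) ^ 2 + (b : ℝ) ^ 2) := by nlinarith
  have hB : |(b : ℝ)| ≤ 2 * Real.pi * ((a : ℝ) ^ 2 + (b : ℝ) ^ 2) := by nlinarith
  have := mul_le_mul_of_nonneg_right hA (norm_nonneg (x.1 (a, b)))
  have := mul_le_mul_of_nonneg_right hB (norm_nonneg (x.2 (a, b)))
  linarith

theorem Rap.pot {x : Pr} (hx : RapP x) : Rap (Lin.pot x) := fun m => by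
  refine (Summable.add (hx.1 m) (hx.2 m)).of_nonneg_of_le
    (fun k => by have := wt_pos k; positivity) fun k => ?_
  rw [← mul_add]
  exact mul_le_mul_of_nonneg_left (norm_pot_le x k) (by have := wt_pos k; positivity)

theorem RapP.proj {x : Pr} (hx : RapP x) : RapP (Lin.proj x) :=
  ⟨(Rap.pot hx).dC e1, (Rap.pot hx).dC e2⟩

theorem pot_add (x y : Pr) : pot (x + y) = pot x + pot y := by
  funext k
  simp only [pot, Prod.fst_add, Prod.snd_add, Pi.add_apply]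
  ring

theorem proj_add (x y : Pr) : proj (x + y) = proj x + proj y := by
  simp [proj, pot_add, dC_add]

theorem dP_proj (η : Pl) (x : Pr) : dP η (proj x) = proj (dP η x) := by
  refine Prod.ext ?_ ?_ <;> funext k <;> simp only [dP, proj, dC, pot] <;> ring

theorem dP_add (η : Pl) (x y : Pr) : dP η (x + y) = dP η x + dP η y := by
  simp [dP, dC_add]

theorem dP_mv (η : Pl) {M : Mt} {x : Pr} (hM : RapM M) (hx : RapP x) :
    dP η (mv M x) = mv (dM η M) x + mv M (dP η x) := by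
  refine Prod.ext ?_ ?_
  · simp only [dP, mv, dM, Prod.fst_add, dC_add, dC_conv η hM.1.1 hx.1, dC_conv η hM.1.2 hx.2]
    abel
  · simp only [dP, mv, dM, Prod.snd_add, dC_add, dC_conv η hM.2.1 hx.1, dC_conv η hM.2.2 hx.2]
    abel

/-- Squared energy. -/
noncomputable def Q0 (x : Pr) : ℝ := ∑' k, (‖x.1 k‖ ^ 2 + ‖x.2 k‖ ^ 2)

/-- Squared energy of derivatives up to order `j`. -/
noncomputable def Q : ℕ → Pr → ℝ
  | 0, x => Q0 x
  | j + 1, x => Q j x + Q j (dP e1 x) + Q j (dP e2 x)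

theorem Q0_nonneg (x : Pr) : 0 ≤ Q0 x := tsum_nonneg fun k => by positivity

theorem Q_nonneg (j : ℕ) (x : Pr) : 0 ≤ Q j x := by
  induction j generalizing x with
  | zero => exact Q0_nonneg x
  | succ j ih => simp only [Q]; have := ih x; have := ih (dP e1 x); have := ih (dP e2 x); linarith

theorem summable_Q0 {x : Pr} (hx : RapP x) : Summable fun k => ‖x.1 k‖ ^ 2 + ‖x.2 k‖ ^ 2 :=
  (summable_normSq (hx.1 0)).add (summable_normSq (hx.2 0))

theorem Q0_eq {x : Pr} (hx : RapP x) :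
    Q0 x = ∫ p in sq, (‖ev x.1 p‖ ^ 2 + ‖ev x.2 p‖ ^ 2) := by
  rw [integral_add (integrable_norm_sq (hx.1 0)) (integrable_norm_sq (hx.2 0)),
    parseval (hx.1 0), parseval (hx.2 0), Q0,
    (summable_normSq (hx.1 0)).tsum_add (summable_normSq (hx.2 0))]

theorem Q0_add_le {x y : Pr} (hx : RapP x) (hy : RapP y) {ε : ℝ} (hε : 0 < ε) :
    Q0 (x + y) ≤ (1 + ε) * Q0 x + (1 + 1 / ε) * Q0 y := by
  simp only [Q0]
  rw [← tsum_mul_left, ← tsum_mul_left,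
    ← ((summable_Q0 hx).mul_left _).tsum_add ((summable_Q0 hy).mul_left _)]
  refine (summable_Q0 (hx.add hy)).tsum_le_tsum (fun k => ?_)
    (((summable_Q0 hx).mul_left _).add ((summable_Q0 hy).mul_left _))
  have key : ∀ u v : ℂ, ‖u + v‖ ^ 2 ≤ (1 + ε) * ‖u‖ ^ 2 + (1 + 1 / ε) * ‖v‖ ^ 2 := by
    intro u v
    have h0 : ‖u + v‖ ^ 2 ≤ (‖u‖ + ‖v‖) ^ 2 := pow_le_pow_left₀ (norm_nonneg _) (norm_add_le _ _) 2
    have h1 : 0 ≤ (ε * ‖u‖ - ‖v‖) ^ 2 / ε := by positivity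
    have h2 : (ε * ‖u‖ - ‖v‖) ^ 2 / ε = ε * ‖u‖ ^ 2 - 2 * ‖u‖ * ‖v‖ + (1 / ε) * ‖v‖ ^ 2 := by
      field_simp
      ring
    nlinarith
  have a := key (x.1 k) (y.1 k)
  have b := key (x.2 k) (y.2 k)
  simp only [Prod.fst_add, Prod.snd_add, Pi.add_apply]
  linarith

theorem Q_add_le (j : ℕ) {x y : Pr} (hx : RapP x) (hy : RapP y) :
    Q j (x + y) ≤ 2 * Q j x + 2 * Q j y := by
  induction j generalizing x y with
  | zero =>
    have := Q0_add_le hx hy one_pos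
    norm_num at this
    exact this
  | succ j ih =>
    simp only [Q, dP_add]
    have := ih hx hy
    have := ih (hx.dP e1) (hy.dP e1)
    have := ih (hx.dP e2) (hy.dP e2)
    linarith

theorem Q_proj_le (j : ℕ) {x : Pr} (hx : RapP x) : Q j (proj x) ≤ Q j x := by
  induction j generalizing x with
  | zero =>
    refine (summable_Q0 hx.proj).tsum_le_tsum (fun k => ?_) (summable_Q0 hx)
    obtain ⟨a, b⟩ := k
    by_cases h0 : (a : ℝ) ^ 2 + (b : ℝ) ^ 2 = 0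
    · have : (a : ℂ) ^ 2 + (b : ℂ) ^ 2 = 0 := by exact_mod_cast h0
      simp only [proj, dC, pot, this, mul_zero, div_zero, norm_zero]
      norm_num
      positivity
    have hN : (0 : ℝ) < (a : ℝ) ^ 2 + (b : ℝ) ^ 2 := lt_of_le_of_ne (by positivity) (Ne.symm h0)
    have hNc : (a : ℂ) ^ 2 + (b : ℂ) ^ 2 ≠ 0 := by exact_mod_cast h0
    set N : ℝ := (a : ℝ) ^ 2 + (b : ℝ) ^ 2
    set S : ℂ := (a : ℂ) * x.1 (a, b) + (b : ℂ) * x.2 (a, b) with hS
    have hpi : (Real.pi : ℂ) ≠ 0 := by exact_mod_cast Real.pi_ne_zero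
    have e1' : (proj x).1 (a, b) = (((a : ℝ) / N : ℝ) : ℂ) * S := by
      simp only [proj, dC, pot, dsym, e1, N, hS]
      push_cast
      field_simp [Complex.I_ne_zero]
      ring
    have e2' : (proj x).2 (a, b) = (((b : ℝ) / N : ℝ) : ℂ) * S := by
      simp only [proj, dC, pot, dsym, e2, N, hS]
      push_cast
      field_simp [Complex.I_ne_zero]
      ring
    rw [e1', e2']
    simp only [norm_mul, Complex.norm_real, Real.norm_eq_abs, mul_pow, sq_abs]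
    have hS2 : ‖S‖ ^ 2 ≤ N * (‖x.1 (a, b)‖ ^ 2 + ‖x.2 (a, b)‖ ^ 2) := by
      have h1 : ‖S‖ ≤ |(a : ℝ)| * ‖x.1 (a, b)‖ + |(b : ℝ)| * ‖x.2 (a, b)‖ := by
        refine (norm_add_le _ _).trans (le_of_eq ?_)
        simp
      have h2 := pow_le_pow_left₀ (norm_nonneg S) h1 2
      have h3 : 0 ≤ (|(a : ℝ)| * ‖x.2 (a, b)‖ - |(b : ℝ)| * ‖x.1 (a, b)‖) ^ 2 := by positivity
      have := sq_abs (a : ℝ)
      have := sq_abs (b : ℝ)
      simp only [N]
      nlinarith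
    calc ((a : ℝ) / N) ^ 2 * ‖S‖ ^ 2 + ((b : ℝ) / N) ^ 2 * ‖S‖ ^ 2 = ‖S‖ ^ 2 / N := by
          field_simp
          simp only [N]
          ring
      _ ≤ _ := by rw [div_le_iff₀ hN]; linarith [hS2]
  | succ j ih =>
    simp only [Q, dP_proj]
    have := ih hx
    have := ih (hx.dP e1)
    have := ih (hx.dP e2)
    linarith

/-- Pointwise bound of the matrix. -/
def MBd (M : Mt) (K : ℝ) : Prop := ∀ p : Pl, ∀ z w : ℂ,
  ‖ev M.1.1 p * z + ev M.1.2 p * w‖ ^ 2 + ‖ev M.2.1 p * z + ev M.2.2 p * w‖ ^ 2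
    ≤ K * (‖z‖ ^ 2 + ‖w‖ ^ 2)

theorem exists_mbd {M : Mt} (hM : RapM M) : ∃ K, 0 ≤ K ∧ MBd M K := by
  set A := nrm 0 M.1.1 + nrm 0 M.1.2 + nrm 0 M.2.1 + nrm 0 M.2.2
  refine ⟨4 * A ^ 2, by positivity, fun p z w => ?_⟩
  have h11 := norm_ev_le (hM.1.1 0) p
  have h12 := norm_ev_le (hM.1.2 0) p
  have h21 := norm_ev_le (hM.2.1 0) p
  have h22 := norm_ev_le (hM.2.2 0) p
  have n11 : (0 : ℝ) ≤ nrm 0 M.1.1 := (norm_nonneg _).trans h11
  have n12 : (0 : ℝ) ≤ nrm 0 M.1.2 := (norm_nonneg _).trans h12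
  have n21 : (0 : ℝ) ≤ nrm 0 M.2.1 := (norm_nonneg _).trans h21
  have n22 : (0 : ℝ) ≤ nrm 0 M.2.2 := (norm_nonneg _).trans h22
  have key : ∀ α β : ℂ, ‖α‖ ≤ A → ‖β‖ ≤ A →
      ‖α * z + β * w‖ ^ 2 ≤ 2 * A ^ 2 * (‖z‖ ^ 2 + ‖w‖ ^ 2) := by
    intro α β hα hβ
    have h := norm_add_le (α * z) (β * w)
    rw [norm_mul, norm_mul] at h
    have h1 := mul_le_mul_of_nonneg_right hα (norm_nonneg z)
    have h2 := mul_le_mul_of_nonneg_right hβ (norm_nonneg w)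
    have h3 := pow_le_pow_left₀ (norm_nonneg _) (h.trans (add_le_add h1 h2)) 2
    nlinarith [sq_nonneg (A * ‖z‖ - A * ‖w‖)]
  have a := key (ev M.1.1 p) (ev M.1.2 p) (h11.trans (by linarith)) (h12.trans (by linarith))
  have b := key (ev M.2.1 p) (ev M.2.2 p) (h21.trans (by linarith)) (h22.trans (by linarith))
  linarith

theorem Q0_mv_le {M : Mt} {x : Pr} {K : ℝ} (hM : RapM M) (hx : RapP x) (hK : MBd M K) :
    Q0 (mv M x) ≤ K * Q0 x := by
  rw [Q0_eq (hx.mv hM), Q0_eq hx, ← integral_const_mul]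
  have hi : IntegrableOn (fun p => ‖ev x.1 p‖ ^ 2 + ‖ev x.2 p‖ ^ 2) sq :=
    (integrable_norm_sq (hx.1 0)).add (integrable_norm_sq (hx.2 0))
  refine setIntegral_mono ((integrable_norm_sq ((hx.mv hM).1 0)).add
    (integrable_norm_sq ((hx.mv hM).2 0))) (hi.const_mul K) fun p => ?_
  simp only [mv, ev_add ((hM.1.1.conv hx.1) 0) ((hM.1.2.conv hx.2) 0),
    ev_add ((hM.2.1.conv hx.1) 0) ((hM.2.2.conv hx.2) 0), ev_conv (hM.1.1 0) (hx.1 0),
    ev_conv (hM.1.2 0) (hx.2 0), ev_conv (hM.2.1 0) (hx.1 0), ev_conv (hM.2.2 0) (hx.2 0)]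
  exact hK p _ _

theorem Q_mv_le (j : ℕ) {M : Mt} (hM : RapM M) :
    ∃ C, 0 ≤ C ∧ ∀ x, RapP x → Q j (mv M x) ≤ C * Q j x := by
  induction j generalizing M with
  | zero =>
    obtain ⟨K, h0, hK⟩ := exists_mbd hM
    exact ⟨K, h0, fun x hx => Q0_mv_le hM hx hK⟩
  | succ j ih =>
    obtain ⟨C, hC, h⟩ := ih hM
    obtain ⟨C1, hC1, h1⟩ := ih (hM.dM e1)
    obtain ⟨C2, hC2, h2⟩ := ih (hM.dM e2)
    refine ⟨2 * C + 2 * C1 + 2 * C2, by positivity, fun x hx => ?_⟩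
    simp only [Q, dP_mv _ hM hx]
    have a := h x hx
    have a1 := h _ (hx.dP e1)
    have a2 := h _ (hx.dP e2)
    have b1 := h1 x hx
    have b2 := h2 x hx
    have c1 := Q_add_le j (hx.mv (hM.dM e1)) ((hx.dP e1).mv hM)
    have c2 := Q_add_le j (hx.mv (hM.dM e2)) ((hx.dP e2).mv hM)
    have := Q_nonneg j x
    have := Q_nonneg j (dP e1 x)
    have := Q_nonneg j (dP e2 x)
    nlinarith

theorem geom_of_rec {q f : ℕ → ℝ} {K ρ C L : ℝ} (hK : 0 ≤ K) (hKρ : K < ρ) (_hC : 0 ≤ C)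
    (hL : 0 ≤ L) (hq0 : 0 ≤ q 0) (hf : ∀ n, f n ≤ C * ρ ^ n)
    (hrec : ∀ n, q (n + 1) ≤ K * q n + L * f n) :
    ∃ D, 0 ≤ D ∧ ∀ n, q n ≤ D * ρ ^ n := by
  set D := max (q 0) (L * C / (ρ - K))
  have hD : L * C ≤ D * (ρ - K) := by
    rw [← div_le_iff₀ (by linarith)]; exact le_max_right _ _
  refine ⟨D, le_max_of_le_left hq0, fun n => ?_⟩
  induction n with
  | zero => simp [D]
  | succ n ih =>
    have hρ : 0 ≤ ρ ^ n := pow_nonneg (by linarith) n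
    have h1 := mul_le_mul_of_nonneg_left ih hK
    have h2 := mul_le_mul_of_nonneg_left (hf n) hL
    have h3 := mul_le_mul_of_nonneg_right hD hρ
    rw [pow_succ]
    have := hrec n
    nlinarith

theorem geom_decay {M : Mt} (hM : RapM M) {θ : ℝ} (hθ0 : 0 ≤ θ) (hθ1 : θ < 1) (hb : MBd M θ)
    (j : ℕ) (d e : ℕ → Pr) (hd : ∀ n, RapP (d n)) (he : ∀ n, RapP (e n))
    (hrec : ∀ n, d (n + 1) = proj (mv M (d n)) + e n)
    (hge : ∃ C, 0 ≤ C ∧ ∀ n, Q j (e n) ≤ C * ((1 + θ) / 2) ^ n) :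
    ∃ C, 0 ≤ C ∧ ∀ n, Q j (d n) ≤ C * ((1 + θ) / 2) ^ n := by
  set ρ := (1 + θ) / 2 with hρ
  induction j generalizing d e with
  | zero =>
    obtain ⟨C, hC, hCe⟩ := hge
    set ε := (1 - θ) / 4 with hε
    have hε0 : 0 < ε := by linarith
    refine geom_of_rec (q := fun n => Q 0 (d n)) (f := fun n => Q 0 (e n)) (K := (1 + ε) * θ)
      (L := 1 + 1 / ε) (by positivity) ?_ hC (by positivity) (Q_nonneg 0 _) hCe fun n => ?_
    · rw [hρ, hε]; nlinarith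
    · show Q0 (d (n + 1)) ≤ (1 + ε) * θ * Q0 (d n) + (1 + 1 / ε) * Q0 (e n)
      rw [hrec n]
      refine (Q0_add_le ((hd n).mv hM).proj (he n) hε0).trans ?_
      have h1 : Q0 (proj (mv M (d n))) ≤ θ * Q0 (d n) :=
        (Q_proj_le 0 ((hd n).mv hM)).trans (Q0_mv_le hM (hd n) hb)
      have := mul_le_mul_of_nonneg_left h1 (by positivity : (0 : ℝ) ≤ 1 + ε)
      linarith
  | succ j ih =>
    obtain ⟨C, hC, hCe⟩ := hge
    obtain ⟨A, hA, hAd⟩ := ih d e hd he hrec ⟨C, hC, fun n => le_trans (by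
      simp only [Q]; have := Q_nonneg j (dP e1 (e n)); have := Q_nonneg j (dP e2 (e n)); linarith)
      (hCe n)⟩
    have step : ∀ η : Pl, (∀ n, Q j (dP η (e n)) ≤ C * ρ ^ n) →
        ∃ B, 0 ≤ B ∧ ∀ n, Q j (dP η (d n)) ≤ B * ρ ^ n := by
      intro η hη
      obtain ⟨L, hL, hLx⟩ := Q_mv_le j (hM.dM η)
      refine ih (fun n => dP η (d n)) (fun n => proj (mv (dM η M) (d n)) + dP η (e n))
        (fun n => (hd n).dP η) (fun n => ((hd n).mv (hM.dM η)).proj.add ((he n).dP η))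
        (fun n => ?_) ⟨2 * (L * A) + 2 * C, by positivity, fun n => ?_⟩
      · simp only [hrec n, dP_add, dP_proj, dP_mv η hM (hd n), proj_add]
        abel
      · refine (Q_add_le j ((hd n).mv (hM.dM η)).proj ((he n).dP η)).trans ?_
        have h1 := (Q_proj_le j ((hd n).mv (hM.dM η))).trans (hLx _ (hd n))
        have h2 := mul_le_mul_of_nonneg_left (hAd n) hL
        have h3 := hη n
        linarith
    have hp : ∀ n, Q j (dP e1 (e n)) ≤ C * ρ ^ n ∧ Q j (dP e2 (e n)) ≤ C * ρ ^ n := fun n => by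
      have h := hCe n
      simp only [Q] at h
      have := Q_nonneg j (e n)
      have := Q_nonneg j (dP e1 (e n))
      have := Q_nonneg j (dP e2 (e n))
      exact ⟨by linarith, by linarith⟩
    obtain ⟨B1, hB1, h1⟩ := step e1 fun n => (hp n).1
    obtain ⟨B2, hB2, h2⟩ := step e2 fun n => (hp n).2
    refine ⟨A + B1 + B2, by positivity, fun n => ?_⟩
    simp only [Q]
    have := hAd n
    have := h1 n
    have := h2 n
    linarith

theorem coef_le_Q (j : ℕ) {x : Pr} (hx : RapP x) (k : Z2) :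
    wt k ^ (2 * j) * (‖x.1 k‖ ^ 2 + ‖x.2 k‖ ^ 2) ≤ 3 ^ j * Q j x := by
  induction j generalizing x with
  | zero =>
    simp only [mul_zero, pow_zero, one_mul, Q, Q0]
    exact (summable_Q0 hx).le_tsum k fun l _ => by positivity
  | succ j ih =>
    have h := ih hx
    have h1 := ih (hx.dP e1)
    have h2 := ih (hx.dP e2)
    set T := ‖x.1 k‖ ^ 2 + ‖x.2 k‖ ^ 2
    have key : ∀ η : Pl, ‖(dP η x).1 k‖ ^ 2 + ‖(dP η x).2 k‖ ^ 2 = ‖dsym η k‖ ^ 2 * T := fun η => by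
      simp only [dP, dC, norm_mul, T]; ring
    rw [key] at h1 h2
    have n1 : (k.1 : ℝ) ^ 2 ≤ ‖dsym e1 k‖ ^ 2 := by
      simp [dsym, e1, abs_of_pos Real.pi_pos, mul_pow, sq_abs]
      have h4 : (1 : ℝ) ≤ 2 ^ 2 * Real.pi ^ 2 := by nlinarith [Real.two_le_pi]
      have := mul_le_mul_of_nonneg_right h4 (sq_nonneg (k.1 : ℝ))
      linarith
    have n2 : (k.2 : ℝ) ^ 2 ≤ ‖dsym e2 k‖ ^ 2 := by
      simp [dsym, e2, abs_of_pos Real.pi_pos, mul_pow, sq_abs]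
      have h4 : (1 : ℝ) ≤ 2 ^ 2 * Real.pi ^ 2 := by nlinarith [Real.two_le_pi]
      have := mul_le_mul_of_nonneg_right h4 (sq_nonneg (k.2 : ℝ))
      linarith
    have hw : wt k ^ 2 ≤ 3 * (1 + ‖dsym e1 k‖ ^ 2 + ‖dsym e2 k‖ ^ 2) := by
      have : wt k ^ 2 ≤ 3 * (1 + (k.1 : ℝ) ^ 2 + (k.2 : ℝ) ^ 2) := by
        simp only [wt]
        nlinarith [sq_nonneg (|(k.1 : ℝ)| - |(k.2 : ℝ)|), sq_nonneg (|(k.1 : ℝ)| - 1),
          sq_nonneg (|(k.2 : ℝ)| - 1), sq_abs (k.1 : ℝ), sq_abs (k.2 : ℝ)]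
      linarith
    have hX : 0 ≤ wt k ^ (2 * j) * T := by have := wt_pos k; positivity
    calc wt k ^ (2 * (j + 1)) * T = wt k ^ 2 * (wt k ^ (2 * j) * T) := by ring
      _ ≤ 3 * (1 + ‖dsym e1 k‖ ^ 2 + ‖dsym e2 k‖ ^ 2) * (wt k ^ (2 * j) * T) :=
          mul_le_mul_of_nonneg_right hw hX
      _ = 3 * (wt k ^ (2 * j) * T + wt k ^ (2 * j) * (‖dsym e1 k‖ ^ 2 * T)
            + wt k ^ (2 * j) * (‖dsym e2 k‖ ^ 2 * T)) := by ring
      _ ≤ 3 * (3 ^ j * Q j x + 3 ^ j * Q j (dP e1 x) + 3 ^ j * Q j (dP e2 x)) := by linarith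
      _ = 3 ^ (j + 1) * Q (j + 1) x := by simp only [Q]; ring

end Vale.Agent.P205.Full.Lin
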