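import Vale.Agent.P205.Full.Linear.Energy

/-!
The Neumann series converges in every weight and gives the fixed point.
-/

open scoped ContDiff
open Complex

namespace Vale.Agent.P205.Full.Lin

/-- Pointwise sum of a sequence of pairs. -/
noncomputable def sumP (d : ℕ → Pr) : Pr :=
  (fun k => ∑' n, (d n).1 k, fun k => ∑' n, (d n).2 k)

/-- The iterates of `x ↦ proj (M x)` starting at `proj G`. -/
noncomputable def iter (M : Mt) (G : Pr) : ℕ → Pr
  | 0 => proj G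
  | n + 1 => proj (mv M (iter M G n))

theorem rapP_iter {M : Mt} {G : Pr} (hM : RapM M) (hG : RapP G) (n : ℕ) : RapP (iter M G n) := by
  induction n with
  | zero => exact hG.proj
  | succ n ih => exact (ih.mv hM).proj

theorem RapP_zero : RapP (0 : Pr) :=
  ⟨fun m => mem_zero' m, fun m => mem_zero' m⟩

theorem Q_zero (m : ℕ) : Q m (0 : Pr) = 0 := by
  induction m with
  | zero => simp [Q, Q0]
  | succ m ih =>
    have hP : ∀ η, dP η (0 : Pr) = 0 := fun η => by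
      refine Prod.ext ?_ ?_ <;> funext k <;> simp [dP, dC]
    simp [Q, hP, ih]

/-- Geometric pointwise bound. -/
def Geo (d : ℕ → Pr) : Prop :=
  ∀ m : ℕ, ∃ K r : ℝ, 0 ≤ K ∧ 0 ≤ r ∧ r < 1 ∧ ∀ n k,
    wt k ^ m * ‖(d n).1 k‖ ≤ K * r ^ n ∧ wt k ^ m * ‖(d n).2 k‖ ≤ K * r ^ n

theorem geo_iter {M : Mt} {G : Pr} (hM : RapM M) (hG : RapP G) {θ : ℝ} (h0 : 0 ≤ θ) (h1 : θ < 1)
    (hb : MBd M θ) : Geo (iter M G) := by
  intro m
  obtain ⟨C, hC, hd⟩ := geom_decay hM h0 h1 hb m (iter M G) (fun _ => 0) (rapP_iter hM hG)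
    (fun _ => RapP_zero) (fun n => by simp [iter]) ⟨0, le_rfl, fun n => by simp [Q_zero]⟩
  refine ⟨Real.sqrt (3 ^ m * C), Real.sqrt ((1 + θ) / 2), Real.sqrt_nonneg _, Real.sqrt_nonneg _,
    by rw [Real.sqrt_lt' one_pos]; linarith, fun n k => ?_⟩
  have h := (coef_le_Q m (rapP_iter hM hG n) k).trans
    (mul_le_mul_of_nonneg_left (hd n) (by positivity))
  have hw : 0 ≤ wt k ^ m := pow_nonneg (wt_nonneg k) m
  have e : Real.sqrt (3 ^ m * C) * Real.sqrt ((1 + θ) / 2) ^ n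
      = Real.sqrt (3 ^ m * (C * ((1 + θ) / 2) ^ n)) := by
    rw [← mul_assoc, Real.sqrt_mul (by positivity) (((1 + θ) / 2) ^ n)]
    congr 1
    symm
    rw [Real.sqrt_eq_iff_mul_self_eq (by positivity) (by positivity), ← mul_pow,
      Real.mul_self_sqrt (by positivity)]
  rw [e]
  rw [pow_mul'] at h
  have n1 := sq_nonneg ‖((iter M G n).1 k)‖
  have n2 := sq_nonneg ‖((iter M G n).2 k)‖
  have hw2 := sq_nonneg (wt k ^ m)
  constructor <;> refine Real.le_sqrt_of_sq_le (le_trans ?_ h) <;> rw [mul_pow] <;>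
    exact mul_le_mul_of_nonneg_left (by linarith) hw2

theorem Geo.summable {d : ℕ → Pr} (hd : Geo d) (k : Z2) :
    (Summable fun n => ‖(d n).1 k‖) ∧ Summable fun n => ‖(d n).2 k‖ := by
  obtain ⟨K, r, -, r0, r1, h⟩ := hd 0
  have hs : Summable fun n : ℕ => K * r ^ n := (summable_geometric_of_lt_one r0 r1).mul_left K
  exact ⟨hs.of_nonneg_of_le (fun n => norm_nonneg _) fun n => by simpa using (h n k).1,
    hs.of_nonneg_of_le (fun n => norm_nonneg _) fun n => by simpa using (h n k).2⟩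

theorem Geo.rap {d : ℕ → Pr} (hd : Geo d) : RapP (sumP d) := by
  refine ⟨fun m => ?_, fun m => ?_⟩
  all_goals
    obtain ⟨K, r, K0, r0, r1, h⟩ := hd (m + 4)
    refine (summable_inv_wt.mul_left (∑' n : ℕ, K * r ^ n)).of_nonneg_of_le
      (fun k => wt_pow_mul_nonneg m _ k) fun k => ?_
    have hs : Summable fun n : ℕ => K * r ^ n := (summable_geometric_of_lt_one r0 r1).mul_left K
    have hp : 0 < wt k ^ 4 := pow_pos (Full.wt_pos k) 4
    rw [← div_eq_mul_inv, le_div_iff₀ hp, mul_right_comm, ← pow_add]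
    simp only [sumP]
    obtain ⟨s1, s2⟩ := hd.summable k
  · refine (mul_le_mul_of_nonneg_left (norm_tsum_le_tsum_norm s1)
      (pow_nonneg (wt_nonneg k) _)).trans ?_
    rw [← tsum_mul_left]
    exact (s1.mul_left _).tsum_le_tsum (fun n => (h n k).1) hs
  · refine (mul_le_mul_of_nonneg_left (norm_tsum_le_tsum_norm s2)
      (pow_nonneg (wt_nonneg k) _)).trans ?_
    rw [← tsum_mul_left]
    exact (s2.mul_left _).tsum_le_tsum (fun n => (h n k).2) hs

theorem summable_prod_conv {c : Coef} (hc : Mem 0 c) {f : ℕ → Coef} {K r : ℝ} (K0 : 0 ≤ K)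
    (r0 : 0 ≤ r) (r1 : r < 1) (hf : ∀ n k, ‖f n k‖ ≤ K * r ^ n) (k : Z2) :
    Summable (Function.uncurry fun l n => c l * f n (k - l)) := by
  refine Summable.of_norm_bounded ((hc.summable_norm).mul_of_nonneg
    ((summable_geometric_of_lt_one r0 r1).mul_left K) (fun l => norm_nonneg _)
    (fun n => mul_nonneg K0 (pow_nonneg r0 n))) ?_
  rintro ⟨l, n⟩
  simp only [Function.uncurry, norm_mul]
  exact mul_le_mul_of_nonneg_left (hf n _) (norm_nonneg _)

theorem conv_tsum {c : Coef} (hc : Mem 0 c) {f : ℕ → Coef} {K r : ℝ} (K0 : 0 ≤ K)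
    (r0 : 0 ≤ r) (r1 : r < 1) (hf : ∀ n k, ‖f n k‖ ≤ K * r ^ n) (k : Z2) :
    Summable (fun n => conv c (f n) k) ∧
      conv c (fun j => ∑' n, f n j) k = ∑' n, conv c (f n) k := by
  have h := summable_prod_conv hc K0 r0 r1 hf k
  refine ⟨h.prod_symm.prod, ?_⟩
  simp only [conv, ← tsum_mul_left]
  exact h.tsum_comm.symm

theorem mv_sumP {M : Mt} (hM : RapM M) {d : ℕ → Pr} (hd : Geo d) (k : Z2) :
    ((Summable fun n => (mv M (d n)).1 k) ∧ (mv M (sumP d)).1 k = ∑' n, (mv M (d n)).1 k) ∧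
    ((Summable fun n => (mv M (d n)).2 k) ∧ (mv M (sumP d)).2 k = ∑' n, (mv M (d n)).2 k) := by
  obtain ⟨K, r, K0, r0, r1, h⟩ := hd 0
  simp only [pow_zero, one_mul] at h
  have A : ∀ {c : Coef}, Mem 0 c → (Summable (fun n => conv c (d n).1 k) ∧
      conv c (fun j => ∑' n, (d n).1 j) k = ∑' n, conv c (d n).1 k) := fun hc =>
    conv_tsum hc K0 r0 r1 (fun n k => (h n k).1) k
  have B : ∀ {c : Coef}, Mem 0 c → (Summable (fun n => conv c (d n).2 k) ∧
      conv c (fun j => ∑' n, (d n).2 j) k = ∑' n, conv c (d n).2 k) := fun hc =>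
    conv_tsum hc K0 r0 r1 (fun n k => (h n k).2) k
  obtain ⟨a1, a2⟩ := A (hM.1.1 0)
  obtain ⟨b1, b2⟩ := B (hM.1.2 0)
  obtain ⟨c1, c2⟩ := A (hM.2.1 0)
  obtain ⟨d1, d2⟩ := B (hM.2.2 0)
  simp only [mv, sumP, Pi.add_apply]
  refine ⟨⟨a1.add b1, ?_⟩, c1.add d1, ?_⟩
  · rw [a1.tsum_add b1, a2, b2]
  · rw [c1.tsum_add d1, c2, d2]

theorem exists_fix {M : Mt} {G : Pr} (hM : RapM M) (hG : RapP G) {θ : ℝ} (h0 : 0 ≤ θ) (h1 : θ < 1)
    (hb : MBd M θ) : ∃ X, RapP X ∧ proj (mv M X + G) = X := by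
  have hd := geo_iter hM hG h0 h1 hb
  refine ⟨sumP (iter M G), hd.rap, ?_⟩
  set d := iter M G
  have hk : ∀ k, pot (mv M (sumP d)) k = ∑' n, pot (mv M (d n)) k := by
    intro k
    obtain ⟨⟨a1, a2⟩, b1, b2⟩ := mv_sumP hM hd k
    simp only [pot, a2, b2]
    rw [← tsum_mul_left, ← tsum_mul_left, ← (a1.mul_left _).tsum_add (b1.mul_left _),
      tsum_div_const]
  rw [proj_add]
  refine Prod.ext ?_ ?_ <;> funext k
  all_goals obtain ⟨s1, s2⟩ := hd.summable k
  · simp only [sumP, Prod.fst_add, Pi.add_apply]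
    rw [(Summable.of_norm s1).tsum_eq_zero_add, add_comm (((proj _).1) k)]
    congr 1
    show dC e1 (pot (mv M (sumP d))) k = ∑' n, dC e1 (pot (mv M (d n))) k
    simp only [dC, hk]
    rw [tsum_mul_left]
  · simp only [sumP, Prod.snd_add, Pi.add_apply]
    rw [(Summable.of_norm s2).tsum_eq_zero_add, add_comm (((proj _).2) k)]
    congr 1
    show dC e2 (pot (mv M (sumP d))) k = ∑' n, dC e2 (pot (mv M (d n))) k
    simp only [dC, hk]
    rw [tsum_mul_left]

end Vale.Agent.P205.Full.Lin
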